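import Vale.Agent.P216.Bdl.B1

/-!
# P216: minimising curves are smooth and satisfy the geodesic equation
-/

set_option maxSynthPendingDepth 3

open Set Filter Topology
open scoped ContDiff

namespace Vale.Agent.P216Z57

open Vale.Agent.P216 Vale.Agent.P216.Local

/-- Solutions of a smooth autonomous equation are smooth. -/
theorem boot {F : Type*} [NormedAddCommGroup F] [NormedSpace ℝ F] {y : ℝ → F} {f : F → F}
    {S : Set ℝ} (hS : IsOpen S) (hy : ∀ t ∈ S, HasDerivAt y (f (y t)) t)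
    (hf : ∀ t ∈ S, ContDiffAt ℝ ∞ f (y t)) : ContDiffOn ℝ ∞ y S := by
  rw [contDiffOn_infty]
  intro n
  induction n with
  | zero =>
    exact contDiffOn_zero.2 fun t ht => (hy t ht).continuousAt.continuousWithinAt
  | succ n ih =>
    rw [Nat.cast_succ, contDiffOn_succ_iff_deriv_of_isOpen hS]
    refine ⟨fun t ht => (hy t ht).differentiableAt.differentiableWithinAt, by simp, ?_⟩
    have h1 : ContDiffOn ℝ n (fun t => f (y t)) S := fun t ht =>
      ((hf t ht).of_le (by exact_mod_cast le_top)).comp_contDiffWithinAt t (ih t ht)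
    exact h1.congr fun t ht => (hy t ht).deriv

variable {E : Type*} [NormedAddCommGroup E] [NormedSpace ℝ E] [FiniteDimensional ℝ E]
  {X : Type*} [PseudoMetricSpace X] {U : Set E} {G : E → E →L[ℝ] E →L[ℝ] ℝ} {ψ : E → X}

omit [FiniteDimensional ℝ E] in
theorem quad_smooth :
    ContDiff ℝ ∞ fun q : (E →L[ℝ] E →L[ℝ] E →L[ℝ] ℝ) × E => quad q.1 q.2 := by
  unfold quad
  have h1 : ContDiff ℝ ∞ fun q : (E →L[ℝ] E →L[ℝ] E →L[ℝ] ℝ) × E => q.1.flip :=
    (ContinuousLinearMap.flipₗᵢ ℝ E E (E →L[ℝ] ℝ)).contDiff.comp contDiff_fst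
  have h2 : ContDiff ℝ ∞ fun q : (E →L[ℝ] E →L[ℝ] E →L[ℝ] ℝ) × E => q.1.flip q.2 :=
    h1.clm_apply contDiff_snd
  have h3 : ContDiff ℝ ∞ fun q : (E →L[ℝ] E →L[ℝ] E →L[ℝ] ℝ) × E => (q.1.flip q.2).flip :=
    (ContinuousLinearMap.flipₗᵢ ℝ E E ℝ).contDiff.comp h2
  exact h3.clm_apply contDiff_snd

theorem field_smooth (h : LocalMetric U G ψ) (hG : ContDiffOn ℝ ∞ G U)
    {q : E × (E →L[ℝ] ℝ)} (hq : q.1 ∈ U) : ContDiffAt ℝ ∞ (field G) q := by
  have hG' : ContDiffAt ℝ ∞ G q.1 := hG.contDiffAt (h.isOpen.mem_nhds hq)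
  have h0 : ContDiffAt ℝ ∞ (fun z => (G z).inverse) q.1 := by
    obtain ⟨e, he⟩ := h.exists_equiv hq
    have h1 : ContDiffAt ℝ ∞ ContinuousLinearMap.inverse (G q.1) := by
      rw [← he]
      exact contDiffAt_map_inverse e
    exact h1.comp q.1 hG'
  have h1 : ContDiffAt ℝ ∞ (fun q : E × (E →L[ℝ] ℝ) => (G q.1).inverse) q :=
    h0.comp q contDiffAt_fst
  have h2 : ContDiffAt ℝ ∞ (fun q : E × (E →L[ℝ] ℝ) => (G q.1).inverse q.2) q :=
    h1.clm_apply contDiffAt_snd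
  have h3 : ContDiffAt ℝ ∞ (fderiv ℝ G) q.1 := hG'.fderiv_right (m := ∞) (by simp)
  have h4 : ContDiffAt ℝ ∞ (fun q : E × (E →L[ℝ] ℝ) => fderiv ℝ G q.1) q :=
    h3.comp q contDiffAt_fst
  have h6 : ContDiffAt ℝ ∞ (fun q : E × (E →L[ℝ] ℝ) =>
      ((fderiv ℝ G q.1, (G q.1).inverse q.2) : (E →L[ℝ] E →L[ℝ] E →L[ℝ] ℝ) × E)) q :=
    h4.prodMk h2
  have h5 : ContDiffAt ℝ ∞ ((fun q : (E →L[ℝ] E →L[ℝ] E →L[ℝ] ℝ) × E => quad q.1 q.2) ∘
      (fun q : E × (E →L[ℝ] ℝ) =>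
      ((fderiv ℝ G q.1, (G q.1).inverse q.2) : (E →L[ℝ] E →L[ℝ] E →L[ℝ] ℝ) × E))) q :=
    ContDiffAt.comp q quad_smooth.contDiffAt h6
  have h8 : ContDiffAt ℝ ∞ (fun q : E × (E →L[ℝ] ℝ) =>
      (1 / 2 : ℝ) • quad (fderiv ℝ G q.1) ((G q.1).inverse q.2)) q := h5.const_smul _
  exact h2.prodMk h8

omit [FiniteDimensional ℝ E] in
theorem fderiv_coef {z : E} (hG : DifferentiableAt ℝ G z) (u v w : E) :
    fderiv ℝ (fun z => G z u v) z w = fderiv ℝ G z w u v := by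
  have h1 : HasFDerivAt (fun z => G z u v) _ z :=
    ((ContinuousLinearMap.apply ℝ ℝ v).comp
      (ContinuousLinearMap.apply ℝ (E →L[ℝ] ℝ) u)).hasFDerivAt.comp z hG.hasFDerivAt
  rw [h1.fderiv]
  rfl

variable {x : ℝ → E} {y : E} {ρ C a b v : ℝ}

/-- Minimisers are smooth and satisfy the Euler-Lagrange equation. -/
theorem isMin_eq (h : LocalMetric U G ψ) (hG : ContDiffOn ℝ ∞ G U)
    (hB : GoodBall U G ψ y ρ C) (hx : IsMin ψ x y ρ a b v) {t : ℝ} (ht : t ∈ Ioo a b) :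
    ContDiffAt ℝ ∞ x t ∧ ∀ w, G (x t) (deriv (deriv x) t) w +
      fderiv ℝ G (x t) (deriv x t) (deriv x t) w =
        fderiv ℝ G (x t) w (deriv x t) (deriv x t) / 2 := by
  obtain ⟨P, hP⟩ := hx.ode h hB
  have hU : ∀ s ∈ Ioo a b, x s ∈ U := fun s hs => hB.sub (hx.mem s (Ioo_subset_Icc_self hs))
  have h1 : ContDiffOn ℝ ∞ (fun s => (x s, P s)) (Ioo a b) :=
    boot (f := field G) isOpen_Ioo (fun s hs => (hP s hs).2.2)
      (fun s hs => field_smooth h hG (hU s hs))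
  have hn : Ioo a b ∈ 𝓝 t := isOpen_Ioo.mem_nhds ht
  have h2 : ContDiffAt ℝ ∞ x t := (h1.contDiffAt hn).fst
  refine ⟨h2, fun w => ?_⟩
  have h3 : HasDerivAt x (deriv x t) t := (h2.differentiableAt (by simp)).hasDerivAt
  have h4 : HasDerivAt (deriv x) (deriv (deriv x) t) t := by
    have h5 : ContDiffAt ℝ 1 (deriv x) t := by
      have h6 := (h2.fderiv_right (m := 1) (by norm_cast)).clm_apply
        (contDiffAt_const (c := (1 : ℝ)))
      exact h6
    exact (h5.differentiableAt one_ne_zero).hasDerivAt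
  have hG' : DifferentiableAt ℝ G (x t) :=
    (hG.contDiffAt (h.isOpen.mem_nhds (hU t ht))).differentiableAt (by simp)
  have h5 : HasDerivAt (fun s => G (x s)) (fderiv ℝ G (x t) (deriv x t)) t :=
    hG'.hasFDerivAt.comp_hasDerivAt t h3
  have h6 : HasDerivAt (fun s => G (x s) (deriv x s))
      (fderiv ℝ G (x t) (deriv x t) (deriv x t) + G (x t) (deriv (deriv x) t)) t :=
    h5.clm_apply h4
  have h7 : HasDerivAt P (field G (x t, P t)).2 t :=
    (ContinuousLinearMap.snd ℝ E (E →L[ℝ] ℝ)).hasFDerivAt.comp_hasDerivAt t (hP t ht).2.2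
  have h8 : (fun s => G (x s) (deriv x s)) =ᶠ[𝓝 t] P := by
    filter_upwards [hn] with s hs using (hP s hs).2.1
  have h9 := (h6.congr_of_eventuallyEq h8.symm).unique h7
  have h10 : (G (x t)).inverse (P t) = deriv x t := by
    rw [← (hP t ht).2.1, h.inverse_apply (hU t ht)]
  have h11 := DFunLike.congr_fun h9 w
  simp only [field, h10, add_apply, smul_apply,
    quad_apply, smul_eq_mul] at h11
  linarith

end Vale.Agent.P216Z57
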