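import Mathlib.Geometry.Manifold.VectorBundle.Riemannian
import Mathlib.Geometry.Manifold.VectorBundle.Tangent
import Mathlib.Geometry.Manifold.MFDeriv.Defs
import Mathlib.Geometry.Manifold.Instances.Sphere
import Mathlib.Analysis.Calculus.Deriv.Basic

/-!
# P216: closed geodesics of a smooth Riemannian metric, through the geodesic equation
-/

open Bundle Manifold
open scoped ContDiff

namespace Vale.Agent.P216Z57

/-- Smooth Riemannian metrics on the smooth manifold `M` with model space `E`. -/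
abbrev Met (E M : Type) [NormedAddCommGroup E] [NormedSpace ℝ E] [TopologicalSpace M]
    [ChartedSpace E M] [IsManifold 𝓘(ℝ, E) ∞ M] : Type :=
  ContMDiffRiemannianMetric 𝓘(ℝ, E) ∞ E (fun x : M => TangentSpace 𝓘(ℝ, E) x)

/-- The unit sphere `S^n` of `ℝ^(n+1)`. -/
abbrev Sph (n : ℕ) : Type := Metric.sphere (0 : EuclideanSpace ℝ (Fin (n + 1))) 1

variable {E M : Type} [NormedAddCommGroup E] [NormedSpace ℝ E] [TopologicalSpace M]
  [ChartedSpace E M] [IsManifold 𝓘(ℝ, E) ∞ M] (g : Met E M)

/-- The scalar product `g_x(u, v)` of two tangent vectors at `x`. -/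
noncomputable def ip (x : M) (u v : TangentSpace 𝓘(ℝ, E) x) : ℝ := g.inner x u v

/-- The inverse of the chart at `p`. -/
noncomputable def par (p : M) (z : E) : M := (extChartAt 𝓘(ℝ, E) p).symm z

/-- The differential at `z` of the inverse of the chart at `p`, applied to `u`. -/
noncomputable def vec (p : M) (z u : E) : TangentSpace 𝓘(ℝ, E) (par p z) :=
  mfderiv 𝓘(ℝ, E) 𝓘(ℝ, E) (par p) z u

/-- The coefficients `g_ij u^i v^j` of the metric at the point with coordinates `z` in the chart
at `p`. -/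
noncomputable def coef (p : M) (u v z : E) : ℝ := ip g (par p z) (vec p z u) (vec p z v)

/-- The Christoffel symbols `Γ_(l,ij) u^i v^j w^l`,
`Γ_(l,ij) = (∂_i g_jl + ∂_j g_il - ∂_l g_ij) / 2`. -/
noncomputable def chr (p : M) (u v w z : E) : ℝ :=
  (fderiv ℝ (coef g p v w) z u + fderiv ℝ (coef g p u w) z v - fderiv ℝ (coef g p u v) z w) / 2

/-- The curve `c` in the chart at `p`. -/
noncomputable def crd (E : Type) [NormedAddCommGroup E] [NormedSpace ℝ E] [ChartedSpace E M]
    (p : M) (c : ℝ → M) (t : ℝ) : E := extChartAt 𝓘(ℝ, E) p (c t)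

/-- A geodesic: a smooth curve whose coordinates `x` (chart at `c t`) satisfy, at each time `t`,
`g_lk x''^k + Γ_(l,ij) x'^i x'^j = 0` for all `l`. -/
def IsGeodesic (c : ℝ → M) : Prop :=
  ContMDiff 𝓘(ℝ, ℝ) 𝓘(ℝ, E) ∞ c ∧ ∀ (t : ℝ) (w : E),
    coef g (c t) (deriv (deriv (crd E (c t) c)) t) w (crd E (c t) c t) +
      chr g (c t) (deriv (crd E (c t) c) t) (deriv (crd E (c t) c) t) w (crd E (c t) c t) = 0

/-- A prime closed geodesic: a nonconstant geodesic with least period `τ > 0`. -/
def IsPrimeClosed (c : ℝ → M) (τ : ℝ) : Prop :=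
  IsGeodesic g c ∧ (∃ s t, c s ≠ c t) ∧ 0 < τ ∧ Function.Periodic c τ ∧
    ∀ σ : ℝ, 0 < σ → σ < τ → ¬ Function.Periodic c σ

/-- The set of the images of the prime closed geodesics of `(M, g)`. -/
def images : Set (Set M) := {S | ∃ c τ, IsPrimeClosed g c τ ∧ S = Set.range c}

end Vale.Agent.P216Z57
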