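import Vale.Agent.P216Z57.Tr
import Vale.Agent.P216C.Fin
import Vale.Agent.P216.H215.D3Fin

/-!
# P216: passage to a connected component
-/

open Set Filter Topology Bundle Manifold Matrix
open scoped ContDiff

namespace Vale.Agent.P216Z57

open Vale.Agent.P216

section top

variable {N M : Type} [TopologicalSpace N] [TopologicalSpace M]

theorem pi1_bij (j : C(N, M)) (r : C(M, N)) (h1 : ∀ y, r (j y) = y) (y₀ : N)
    (h2 : ∀ x ∈ connectedComponent (j y₀), j (r x) = x) :
    Function.Bijective (FundamentalGroup.map j y₀) := by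
  constructor
  · intro a b hab
    obtain ⟨a, rfl⟩ := Path.Homotopic.Quotient.mk_surjective a
    obtain ⟨b, rfl⟩ := Path.Homotopic.Quotient.mk_surjective b
    have h3 : (a.map j.continuous).Homotopic (b.map j.continuous) :=
      Path.Homotopic.Quotient.exact hab
    have h4 := (h3.map r).pathCast (h1 y₀).symm (h1 y₀).symm
    have e : ∀ a : Path y₀ y₀,
        ((a.map j.continuous).map r.continuous).cast (h1 y₀).symm (h1 y₀).symm = a := by
      intro a
      ext t
      exact h1 (a t)
    rw [e, e] at h4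
    exact Path.Homotopic.Quotient.eq.2 h4
  · intro a
    obtain ⟨a, rfl⟩ := Path.Homotopic.Quotient.mk_surjective a
    refine ⟨Path.Homotopic.Quotient.mk
      ((a.map r.continuous).cast (h1 y₀).symm (h1 y₀).symm), ?_⟩
    have e : ((a.map r.continuous).cast (h1 y₀).symm (h1 y₀).symm).map j.continuous = a := by
      ext t
      refine h2 (a t) ?_
      exact (isPreconnected_range a.continuous).subset_connectedComponent ⟨0, a.source⟩ ⟨t, rfl⟩
    exact congrArg Path.Homotopic.Quotient.mk e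

theorem pi1_equiv [LocallyConnectedSpace M] (x₀ : M) (e : N ≃ₜ connectedComponent x₀) :
    ∃ y₀ : N, Nonempty (FundamentalGroup N y₀ ≃* FundamentalGroup M x₀) := by
  classical
  have hU : IsClopen (connectedComponent x₀) :=
    ⟨isClosed_connectedComponent, isOpen_connectedComponent⟩
  let s : M → M := fun x => if x ∈ connectedComponent x₀ then x else x₀
  have hs : Continuous s := by
    refine continuous_id.if ?_ continuous_const
    intro a ha
    have : frontier {x | x ∈ connectedComponent x₀} = ∅ := hU.frontier_eq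
    rw [this] at ha
    exact ha.elim
  have hsU : ∀ x, s x ∈ connectedComponent x₀ := by
    intro x
    by_cases hx : x ∈ connectedComponent x₀
    · simp only [s, if_pos hx, hx]
    · simp only [s, if_neg hx, mem_connectedComponent]
  let j : C(N, M) := ⟨fun y => (e y).1, continuous_subtype_val.comp e.continuous⟩
  let r : C(M, N) := ⟨fun x => e.symm ⟨s x, hsU x⟩, e.symm.continuous.comp (hs.subtype_mk _)⟩
  have h1 : ∀ y, r (j y) = y := by
    intro y
    change e.symm ⟨s (e y).1, _⟩ = y
    rw [e.symm_apply_eq]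
    exact Subtype.ext (if_pos (e y).2)
  have h0 : j (e.symm ⟨x₀, mem_connectedComponent⟩) = x₀ := by
    change (e (e.symm _)).1 = x₀
    rw [e.apply_symm_apply]
  have h2 : ∀ x ∈ connectedComponent (j (e.symm ⟨x₀, mem_connectedComponent⟩)), j (r x) = x := by
    intro x hx
    rw [h0] at hx
    change (e (e.symm _)).1 = x
    rw [e.apply_symm_apply]
    exact if_pos hx
  refine ⟨e.symm ⟨x₀, mem_connectedComponent⟩, ?_⟩
  have h3 := MulEquiv.ofBijective _ (pi1_bij j r h1 _ h2)
  rw [h0] at h3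
  exact ⟨h3⟩

theorem cover_comp {S : Type} [TopologicalSpace S] [PreconnectedSpace S] {q : S → M}
    (hq : IsCoveringMap q) (s₀ : S) (e : N ≃ₜ connectedComponent (q s₀)) :
    ∃ q' : S → N, IsCoveringMap q' := by
  have h1 : q ⁻¹' connectedComponent (q s₀) = univ :=
    eq_univ_of_forall fun s =>
      (isPreconnected_range hq.continuous).subset_connectedComponent ⟨s₀, rfl⟩ ⟨s, rfl⟩
  exact ⟨_, ((hq.restrictPreimage (connectedComponent (q s₀))).comp_homeomorph
    ((Homeomorph.setCongr h1).trans (Homeomorph.Set.univ S)).symm).homeomorph_comp e.symm⟩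

end top

theorem sph_conn {n : ℕ} (hn : 2 ≤ n) : ConnectedSpace (Sph n) := by
  refine isConnected_iff_connectedSpace.1 (isConnected_sphere ?_ _ zero_le_one)
  rw [← Module.finrank_eq_rank, finrank_euclideanSpace_fin]
  exact_mod_cast (by omega : 1 < n + 1)

variable {E M : Type} [NormedAddCommGroup E] [NormedSpace ℝ E] [FiniteDimensional ℝ E]
  [TopologicalSpace M] [T2Space M] [CompactSpace M] [ChartedSpace E M]
  [IsManifold 𝓘(ℝ, E) ∞ M] (g : Met E M)

theorem infinite_comp (x₀ : M)
    (h : ∀ (N : Type) [MetricSpace N] [CompactSpace N] [ChartedSpace E N]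
      [IsManifold 𝓘(ℝ, E) ∞ N] [RiemannianBundle (fun x : N => TangentSpace 𝓘(ℝ, E) x)]
      [IsContMDiffRiemannianBundle 𝓘(ℝ, E) ∞ E (fun x : N => TangentSpace 𝓘(ℝ, E) x)]
      [IsRiemannianManifold 𝓘(ℝ, E) N], Nonempty (N ≃ₜ connectedComponent x₀) →
      (primeClosedGeodesicImages N).Infinite) : (images g).Infinite := by
  have := ChartedSpace.locallyConnectedSpace E M
  have : CompactSpace (connectedComponent x₀) :=
    isCompact_iff_compactSpace.1 isClosed_connectedComponent.isCompact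
  have : ConnectedSpace (connectedComponent x₀) :=
    isConnected_iff_connectedSpace.1 isConnected_connectedComponent
  exact infinite_cov g
    (isOpen_connectedComponent (x := x₀)).isOpenEmbedding_subtypeVal.isLocalHomeomorph
    Subtype.val_injective h

theorem main (hn : 2 ≤ Module.finrank ℝ E) (x₀ : M)
    (h : Module.finrank ℝ E = 3 ∨
      (∃ (n : ℕ) (q : Sph n → M), 2 ≤ n ∧ IsCoveringMap q) ∨
      (∃ H : Subgroup (FundamentalGroup M x₀), H.FiniteIndex ∧
          (H = ⊥ ∨ Nonempty (Multiplicative ℤ ≃* H))) ∨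
      (∃ (n : ℕ) (K : Type) (_ : Field K) (ρ : FundamentalGroup M x₀ →* GL (Fin n) K),
          Function.Injective ρ)) : (images g).Infinite := by
  have := ChartedSpace.locallyConnectedSpace E M
  rcases h with h | ⟨n, q, h2, hq⟩ | ⟨H, hH, h⟩ | ⟨n, K, hK, ρ, hρ⟩
  · refine infinite_comp g x₀ fun N _ _ _ _ _ _ _ ⟨e⟩ => ?_
    exact @P216C.goal E _ _ _ N _ _ _ _ _ _ _ ⟨e.symm ⟨x₀, mem_connectedComponent⟩⟩ h
  · have := sph_conn h2
    obtain ⟨s₀⟩ : Nonempty (Sph n) := inferInstance
    refine infinite_comp g (q s₀) fun N _ _ _ _ _ _ _ ⟨e⟩ => ?_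
    obtain ⟨q', hq'⟩ := cover_comp hq s₀ e
    exact H215.main_union E hn (Or.inr (Or.inl ⟨n, q', h2, hq'⟩))
  · refine infinite_comp g x₀ fun N _ _ _ _ _ _ _ ⟨e⟩ => ?_
    obtain ⟨y₀, ⟨φ⟩⟩ := pi1_equiv x₀ e
    refine P216M.main_old E hn y₀ (Or.inl ⟨H.comap φ.toMonoidHom, ⟨?_⟩, ?_⟩)
    · rw [Subgroup.index_comap_of_surjective _ φ.surjective]
      exact hH.1
    · rcases h with rfl | ⟨⟨ψ⟩⟩
      · exact Or.inl ((MonoidHom.ker_eq_bot_iff _).2 φ.injective)
      · refine Or.inr ⟨ψ.trans ?_⟩
        exact (φ.symm.subgroupMap H).trans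
          (MulEquiv.subgroupCongr (Subgroup.comap_equiv_eq_map_symm φ H).symm)
  · refine infinite_comp g x₀ fun N _ _ _ _ _ _ _ ⟨e⟩ => ?_
    obtain ⟨y₀, ⟨φ⟩⟩ := pi1_equiv x₀ e
    exact P216M.main_old E hn y₀
      (Or.inr (Or.inl ⟨n, K, hK, ρ.comp φ.toMonoidHom, hρ.comp φ.injective⟩))

theorem sphere (n : ℕ) (hn : 2 ≤ n) (g : Met (EuclideanSpace ℝ (Fin n)) (Sph n)) :
    (images g).Infinite := by
  have := sph_conn hn
  obtain ⟨s₀⟩ : Nonempty (Sph n) := inferInstance
  refine main g (by rwa [finrank_euclideanSpace_fin]) s₀ (Or.inr (Or.inl ⟨n, id, hn, ?_⟩))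
  exact isLocalHomeomorph_iff_isCoveringMap.1 (Homeomorph.refl _).isLocalHomeomorph

end Vale.Agent.P216Z57
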