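import Vale.Agent.P216Z57.Defs
import Vale.Agent.P216Z57.Ode
import Vale.Agent.P216.H494.CovMain

/-!
# P216: from distance realising curves to solutions of the geodesic equation
-/

set_option maxSynthPendingDepth 3

open Set Filter Topology Bundle Manifold
open scoped ContDiff

namespace Vale.Agent.P216Z57

open Vale.Agent.P216 Vale.Agent.P216.H494

variable {E M : Type} [NormedAddCommGroup E] [NormedSpace ℝ E] [FiniteDimensional ℝ E]
  [TopologicalSpace M] [ChartedSpace E M] [IsManifold 𝓘(ℝ, E) ∞ M] (g : Met E M)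

section gen

variable {N : Type} [MetricSpace N] [ChartedSpace E N] [IsManifold 𝓘(ℝ, E) ∞ N]
  [RiemannianBundle (fun x : N => TangentSpace 𝓘(ℝ, E) x)]
  [IsContMDiffRiemannianBundle 𝓘(ℝ, E) ∞ E (fun x : N => TangentSpace 𝓘(ℝ, E) x)]
  [IsRiemannianManifold 𝓘(ℝ, E) N] {p : N → M}

theorem geo_of (hp : ContMDiff 𝓘(ℝ, E) 𝓘(ℝ, E) ∞ p)
    (hc : ∀ x₀ x, extChartAt 𝓘(ℝ, E) x₀ x = extChartAt 𝓘(ℝ, E) (p x₀) (p x))
    (hm : ∀ x₀ : N, ∀ z ∈ Chart.dom E x₀, ∀ u w, Chart.metric x₀ z u w = coef g (p x₀) u w z)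
    {c : ℝ → N} {v : ℝ} (hv : 0 < v) (h : IsGeodesicWithSpeed c v) : IsGeodesic g (p ∘ c) := by
  have hl : LocMin c v := fun t => by
    obtain ⟨ε, hε, H⟩ := h t
    exact ⟨ε, hε, fun s s' hs hs' => H s s' hs hs'⟩
  have key : ∀ t, ContDiffAt ℝ ∞ (fun s => Chart.phi (E := E) (c t) (c s)) t ∧ ∀ w,
      Chart.metric (c t) (Chart.phi (E := E) (c t) (c t))
          (deriv (deriv fun s => Chart.phi (E := E) (c t) (c s)) t) w +
        fderiv ℝ (Chart.metric (c t)) (Chart.phi (E := E) (c t) (c t))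
          (deriv (fun s => Chart.phi (E := E) (c t) (c s)) t)
          (deriv (fun s => Chart.phi (E := E) (c t) (c s)) t) w =
        fderiv ℝ (Chart.metric (c t)) (Chart.phi (E := E) (c t) (c t)) w
          (deriv (fun s => Chart.phi (E := E) (c t) (c s)) t)
          (deriv (fun s => Chart.phi (E := E) (c t) (c s)) t) / 2 := by
    intro t
    have hpd : Chart.phi (E := E) (c t) (c t) ∈ Chart.dom E (c t) :=
      Chart.phi_mem_dom _ (mem_extChartAt_source _)
    obtain ⟨ρ, C, hB⟩ := (Chart.localMetric (E := E) (c t)).exists_goodBall hpd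
    obtain ⟨δ, hδ, hmin⟩ := hl.exists_isMin E hv (p := c t) (t₀ := t) rfl hB.rpos
    exact isMin_eq (Chart.localMetric (E := E) (c t)) (Chart.metric_contDiffOn _) hB
      (hmin δ hδ le_rfl).1 ⟨by linarith, by linarith⟩
  refine ⟨hp.comp fun t => ?_, fun t w => ?_⟩
  · rw [contMDiffAt_iff_target]
    exact ⟨hl.continuous.continuousAt, (key t).1.contMDiffAt⟩
  · have e1 : crd E ((p ∘ c) t) (p ∘ c) = fun s => Chart.phi (E := E) (c t) (c s) :=
      funext fun s => (hc (c t) (c s)).symm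
    have hpd : Chart.phi (E := E) (c t) (c t) ∈ Chart.dom E (c t) :=
      Chart.phi_mem_dom _ (mem_extChartAt_source _)
    have hn := (Chart.isOpen_dom (E := E) (c t)).mem_nhds hpd
    have hd : DifferentiableAt ℝ (Chart.metric (E := E) (c t)) (Chart.phi (E := E) (c t) (c t)) :=
      ((Chart.metric_contDiffOn _).contDiffAt hn).differentiableAt (by simp)
    have e2 : ∀ u u' u'', fderiv ℝ (coef g (p (c t)) u u') (Chart.phi (E := E) (c t) (c t)) u'' =
        fderiv ℝ (Chart.metric (c t)) (Chart.phi (E := E) (c t) (c t)) u'' u u' := by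
      intro u u' u''
      rw [← fderiv_coef hd]
      have e3 : coef g (p (c t)) u u' =ᶠ[𝓝 (Chart.phi (E := E) (c t) (c t))]
          fun z => Chart.metric (c t) z u u' := by
        filter_upwards [hn] with z hz using (hm _ z hz u u').symm
      rw [e3.fderiv_eq]
    have e4 := (key t).2 w
    rw [e1]
    simp only [Function.comp_apply, chr, e2, ← hm _ _ hpd]
    linarith

theorem infinite_of (hp : ContMDiff 𝓘(ℝ, E) 𝓘(ℝ, E) ∞ p) (hi : Function.Injective p)
    (hc : ∀ x₀ x, extChartAt 𝓘(ℝ, E) x₀ x = extChartAt 𝓘(ℝ, E) (p x₀) (p x))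
    (hm : ∀ x₀ : N, ∀ z ∈ Chart.dom E x₀, ∀ u w, Chart.metric x₀ z u w = coef g (p x₀) u w z)
    (h : (primeClosedGeodesicImages N).Infinite) : (images g).Infinite := by
  refine (h.image (f := fun S => p '' S) (image_injective.2 hi).injOn).mono ?_
  rintro _ ⟨_, ⟨c, τ, ⟨⟨v, hv, hg⟩, hτ, hper, hmin⟩, rfl⟩, rfl⟩
  have hmin' : ∀ σ : ℝ, 0 < σ → σ < τ → ¬ Function.Periodic (p ∘ c) σ :=
    fun σ h1 h2 h3 => hmin σ h1 h2 fun s => hi (h3 s)
  refine ⟨p ∘ c, τ, ⟨geo_of g hp hc hm hv hg, ?_, hτ, hper.comp p, hmin'⟩, (range_comp p c).symm⟩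
  by_contra hne
  refine hmin' (τ / 2) (by linarith) (by linarith) fun s => ?_
  by_contra h4
  exact hne ⟨_, _, h4⟩

end gen

/-- the Riemannian bundle of the metric `g` -/
@[reducible] noncomputable def rb : RiemannianBundle (fun x : M => TangentSpace 𝓘(ℝ, E) x) :=
  ⟨g.toRiemannianMetric⟩

variable {X : Type} [TopologicalSpace X] {f : X → M} (hf : IsLocalHomeomorph f)

omit [FiniteDimensional ℝ E] [IsManifold 𝓘(ℝ, E) ∞ M] in
theorem p_symm (x₀ : Cov hf) {y : E} (hy : y ∈ (extChartAt 𝓘(ℝ, E) x₀).target) :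
    Cov.p hf ((extChartAt 𝓘(ℝ, E) x₀).symm y) = (extChartAt 𝓘(ℝ, E) (Cov.p hf x₀)).symm y := by
  have h4 : y ∈ (chartAt E (Cov.p hf x₀)).target ∧
      (chartAt E (Cov.p hf x₀)).symm y ∈ (Cov.loc hf x₀).target := by
    simpa [extChartAt, Cov.chartAt_eq] using hy
  change Cov.p hf ((Cov.loc hf x₀).symm ((chartAt E (Cov.p hf x₀)).symm y)) =
    (chartAt E (Cov.p hf x₀)).symm y
  have := OpenPartialHomeomorph.right_inv _ h4.2
  rwa [Cov.loc_eq] at this

omit [FiniteDimensional ℝ E] in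
theorem mfderiv_symm (x₀ : Cov hf) {z : E} (hz : z ∈ (extChartAt 𝓘(ℝ, E) x₀).target) (u : E) :
    (mfderiv 𝓘(ℝ, E) 𝓘(ℝ, E) (extChartAt 𝓘(ℝ, E) (Cov.p hf x₀)).symm z u : E) =
      mfderiv 𝓘(ℝ, E) 𝓘(ℝ, E) (extChartAt 𝓘(ℝ, E) x₀).symm z u := by
  have hn := (isOpen_extChartAt_target (I := 𝓘(ℝ, E)) x₀).mem_nhds hz
  have h1 : ((extChartAt 𝓘(ℝ, E) (Cov.p hf x₀)).symm : E → M) =ᶠ[𝓝 z]
      Cov.p hf ∘ (extChartAt 𝓘(ℝ, E) x₀).symm := by
    filter_upwards [hn] with y hy using (p_symm hf x₀ hy).symm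
  have h2 : MDifferentiableAt 𝓘(ℝ, E) 𝓘(ℝ, E) (extChartAt 𝓘(ℝ, E) x₀).symm z :=
    ((contMDiffOn_extChartAt_symm (n := ∞) x₀).contMDiffAt hn).mdifferentiableAt (by simp)
  have h3 := ((Cov.hasMFDerivAt hf _).comp z h2.hasMFDerivAt).congr_of_eventuallyEq h1
  exact DFunLike.congr_fun h3.mfderiv u

include hf in
/-- Transfer to `(M, g)` along an injective local homeomorphism from a compact connected space. -/
theorem infinite_cov [CompactSpace X] [T2Space X] [ConnectedSpace X] (hi : Function.Injective f)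
    (h : ∀ (N : Type) [MetricSpace N] [CompactSpace N] [ChartedSpace E N]
      [IsManifold 𝓘(ℝ, E) ∞ N] [RiemannianBundle (fun x : N => TangentSpace 𝓘(ℝ, E) x)]
      [IsContMDiffRiemannianBundle 𝓘(ℝ, E) ∞ E (fun x : N => TangentSpace 𝓘(ℝ, E) x)]
      [IsRiemannianManifold 𝓘(ℝ, E) N], Nonempty (N ≃ₜ X) →
      (primeClosedGeodesicImages N).Infinite) : (images g).Infinite := by
  let := rb g
  let := Cov.metric E hf
  have := Cov.isRiemannianManifold E hf
  refine infinite_of g (N := Cov hf) (Cov.contMDiff_p hf) hi (Cov.extChartAt_apply hf) ?_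
    (h (Cov hf) ⟨Cov.homeo hf⟩)
  intro x₀ z hz u w
  rw [Chart.metric_apply]
  have h1 := p_symm hf x₀ hz
  have h2 := mfderiv_symm hf x₀ hz u
  have h3 := mfderiv_symm hf x₀ hz w
  have h4 : ∀ (a b : M) (s s' t t' : E), a = b → s = s' → t = t' →
      g.inner a s t = g.inner b s' t' := by
    rintro a _ s _ t _ rfl rfl rfl
    rfl
  exact h4 _ _ _ _ _ _ h1 h2.symm h3.symm

end Vale.Agent.P216Z57
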